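import Vale.Agent.P146.Div.ShapeStep.Smooth

/-!
The third cumulant of a Gaussian tilt by an even potential is nonpositive for tilts to the right,
when the sums of the potential over symmetric pairs satisfy a rectangle inequality.
-/

noncomputable section

open MeasureTheory ProbabilityTheory Filter
open scoped Topology

namespace Vale.Agent.P146.Div.ShapeStep

open Vale.Agent.P157.Parisi.Site (integrable_exp_abs)
open Vale.Agent.P157.Parisi.Full.Concave (tanh_le_tanh tanh_nonneg integral_sym)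

/-- An even potential of linear growth with the rectangle inequality. -/
structure Pot (Φ : ℝ → ℝ) : Prop where
  cont : Continuous Φ
  even : ∀ x, Φ (-x) = Φ x
  growth : ∃ A c, 0 ≤ c ∧ ∀ x, Φ x ≤ A + c * |x|
  rect : ∀ s t u v, 0 ≤ s → s ≤ t → 0 ≤ u → u ≤ v →
    Φ ((t + v) / Real.sqrt 2) + Φ ((t - v) / Real.sqrt 2) +
        (Φ ((s + u) / Real.sqrt 2) + Φ ((s - u) / Real.sqrt 2)) ≤
      Φ ((t + u) / Real.sqrt 2) + Φ ((t - u) / Real.sqrt 2) +
        (Φ ((s + v) / Real.sqrt 2) + Φ ((s - v) / Real.sqrt 2))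

variable {Φ : ℝ → ℝ}

/-- The moments of the tilt at `a`. -/
def moment (Φ : ℝ → ℝ) (n : ℕ) (a : ℝ) : ℝ :=
  ∫ g, g ^ n * Real.exp (a * g + Φ g) ∂gaussianReal 0 1

lemma pow_abs_le (n : ℕ) (g : ℝ) : |g| ^ n ≤ n.factorial * Real.exp |g| := by
  have := Real.pow_div_factorial_le_exp |g| (abs_nonneg g) n
  rw [div_le_iff₀ (by exact_mod_cast n.factorial_pos)] at this
  linarith

lemma integrable_moment (h : Pot Φ) (n : ℕ) (a : ℝ) :
    Integrable (fun g => g ^ n * Real.exp (a * g + Φ g)) (gaussianReal 0 1) := by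
  obtain ⟨A, c, -, hA⟩ := h.growth
  refine ((integrable_exp_abs (|a| + c + 1)).const_mul (n.factorial * Real.exp A)).mono' ?_
    (ae_of_all _ fun g => ?_)
  · have := h.cont
    exact (show Continuous fun g => g ^ n * Real.exp (a * g + Φ g) by fun_prop).aestronglyMeasurable
  · rw [Real.norm_eq_abs, abs_mul, Real.abs_exp, abs_pow]
    refine (mul_le_mul (pow_abs_le n g) (Real.exp_le_exp.2 (add_le_add
      ((le_abs_self _).trans (abs_mul a g).le) (hA g))) (Real.exp_pos _).le (by positivity)).trans ?_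
    rw [mul_assoc, mul_assoc, ← Real.exp_add, ← Real.exp_add]
    exact mul_le_mul_of_nonneg_left (Real.exp_le_exp.2 (by linarith)) (by positivity)

lemma moment_zero_pos (h : Pot Φ) (a : ℝ) : 0 < moment Φ 0 a := by
  have e : moment Φ 0 a = ∫ g, Real.exp (a * g + Φ g) ∂gaussianReal 0 1 := by simp [moment]
  rw [e]
  exact integral_exp_pos ((integrable_moment h 0 a).congr (ae_of_all _ fun g => by simp))

lemma hasDerivAt_moment (h : Pot Φ) (n : ℕ) (a : ℝ) :
    HasDerivAt (moment Φ n) (moment Φ (n + 1) a) a := by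
  obtain ⟨A, c, -, hA⟩ := h.growth
  refine (hasDerivAt_integral_of_dominated_loc_of_deriv_le (μ := gaussianReal 0 1)
    (F := fun t g => g ^ n * Real.exp (t * g + Φ g))
    (F' := fun t g => g ^ (n + 1) * Real.exp (t * g + Φ g))
    (bound := fun g => (n + 1).factorial * Real.exp A * Real.exp ((|a| + 1 + c + 1) * |g|))
    (Metric.ball_mem_nhds a one_pos)
    (Eventually.of_forall fun t => (integrable_moment h n t).1) (integrable_moment h n a)
    (integrable_moment h (n + 1) a).1 ?_ ((integrable_exp_abs _).const_mul _) ?_).2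
  · refine Eventually.of_forall fun g t ht => ?_
    rw [Metric.mem_ball, Real.dist_eq] at ht
    have ht' : t * g ≤ (|a| + 1) * |g| := ((le_abs_self _).trans (abs_mul t g).le).trans
      (mul_le_mul_of_nonneg_right (by linarith [abs_sub_abs_le_abs_sub t a]) (abs_nonneg g))
    rw [Real.norm_eq_abs, abs_mul, Real.abs_exp, abs_pow]
    refine (mul_le_mul (pow_abs_le (n + 1) g) (Real.exp_le_exp.2 (add_le_add ht' (hA g)))
      (Real.exp_pos _).le (by positivity)).trans ?_
    rw [mul_assoc, mul_assoc, ← Real.exp_add, ← Real.exp_add]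
    exact mul_le_mul_of_nonneg_left (Real.exp_le_exp.2 (by linarith)) (by positivity)
  · refine Eventually.of_forall fun g t _ => ?_
    have h1 : HasDerivAt (fun y => y * g + Φ g) g t := by
      simpa using ((hasDerivAt_id t).mul_const g).add_const (Φ g)
    refine (h1.exp.const_mul (g ^ n)).congr_deriv ?_
    rw [pow_succ]; ring

/-! ### The rotated pair -/

/-- The weight of the rotated pair, without the tilt. -/
def pairW (Φ : ℝ → ℝ) (s w : ℝ) : ℝ :=
  Real.exp (Φ ((s + w) / Real.sqrt 2) + Φ ((s - w) / Real.sqrt 2))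

lemma pairW_neg_fst (h : Pot Φ) (s w : ℝ) : pairW Φ (-s) w = pairW Φ s w := by
  rw [pairW, pairW, show (-s + w) / Real.sqrt 2 = -((s - w) / Real.sqrt 2) by ring,
    show (-s - w) / Real.sqrt 2 = -((s + w) / Real.sqrt 2) by ring, h.even, h.even, add_comm]

lemma pairW_abs (h : Pot Φ) (s w : ℝ) : pairW Φ |s| |w| = pairW Φ s w := by
  have hs : ∀ x y, pairW Φ |x| y = pairW Φ x y := fun x y => by
    rcases abs_choice x with e | e <;> rw [e]
    exact pairW_neg_fst h x y
  rw [hs]
  rcases abs_choice w with e | e <;> rw [e]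
  rw [pairW, pairW, sub_neg_eq_add, ← sub_eq_add_neg, add_comm]

lemma pairW_rect (h : Pot Φ) {s t u v : ℝ} (hst : |s| ≤ |t|) (huv : |u| ≤ |v|) :
    pairW Φ t v * pairW Φ s u ≤ pairW Φ t u * pairW Φ s v := by
  rw [← pairW_abs h t v, ← pairW_abs h s u, ← pairW_abs h t u, ← pairW_abs h s v]
  simp only [pairW, ← Real.exp_add]
  exact Real.exp_le_exp.2 (h.rect _ _ _ _ (abs_nonneg s) hst (abs_nonneg u) huv)

/-- Functions of exponential growth. -/
def ExpBdd (p : ℝ → ℝ) : Prop := Continuous p ∧ ∃ K k, ∀ x, |p x| ≤ K * Real.exp (k * |x|)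

lemma ExpBdd.mul {p q : ℝ → ℝ} (hp : ExpBdd p) (hq : ExpBdd q) : ExpBdd fun x => p x * q x := by
  obtain ⟨hpc, K, k, hK⟩ := hp
  obtain ⟨hqc, L, l, hL⟩ := hq
  refine ⟨hpc.mul hqc, K * L, k + l, fun x => ?_⟩
  rw [abs_mul]
  refine (mul_le_mul (hK x) (hL x) (abs_nonneg _) ((abs_nonneg _).trans (hK x))).trans (le_of_eq ?_)
  rw [add_mul, Real.exp_add]; ring

lemma expBdd_pow (n : ℕ) : ExpBdd fun x => x ^ n :=
  ⟨by fun_prop, n.factorial, 1, fun x => by rw [abs_pow, one_mul]; exact pow_abs_le n x⟩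

lemma expBdd_exp (b : ℝ) : ExpBdd fun x => Real.exp (b * x) :=
  ⟨by fun_prop, 1, |b|, fun x => by
    rw [Real.abs_exp, one_mul, ← abs_mul]; exact Real.exp_le_exp.2 (le_abs_self _)⟩

lemma expBdd_one : ExpBdd fun _ => 1 := ⟨continuous_const, 1, 0, fun x => by simp⟩

lemma integrable_pair (h : Pot Φ) {p q : ℝ → ℝ} (hp : ExpBdd p) (hq : ExpBdd q) :
    Integrable (fun z : ℝ × ℝ => p z.1 * (q z.2 * pairW Φ z.1 z.2))
      ((gaussianReal 0 1).prod (gaussianReal 0 1)) := by
  obtain ⟨A, c, hc, hA⟩ := h.growth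
  obtain ⟨hpc, K, k, hK⟩ := hp
  obtain ⟨hqc, L, l, hL⟩ := hq
  refine (((integrable_exp_abs (k + 2 * c)).const_mul (K * Real.exp (2 * A))).mul_prod
    ((integrable_exp_abs (l + 2 * c)).const_mul L)).mono' ?_ (ae_of_all _ fun z => ?_)
  · have := h.cont
    exact (show Continuous fun z : ℝ × ℝ => p z.1 * (q z.2 * pairW Φ z.1 z.2) by
      unfold pairW; fun_prop).aestronglyMeasurable
  · obtain ⟨s, w⟩ := z
    have hs2 : (1 : ℝ) ≤ Real.sqrt 2 := Real.one_le_sqrt.2 one_le_two
    have hb : ∀ y, |y| ≤ |s| + |w| → Φ (y / Real.sqrt 2) ≤ A + c * (|s| + |w|) := fun y hy => by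
      refine (hA _).trans (add_le_add le_rfl (mul_le_mul_of_nonneg_left ?_ hc))
      rw [abs_div, abs_of_pos (by linarith : (0 : ℝ) < Real.sqrt 2)]
      exact (div_le_self (abs_nonneg y) hs2).trans hy
    have hW : pairW Φ s w ≤ Real.exp (2 * A + 2 * c * |s| + 2 * c * |w|) :=
      Real.exp_le_exp.2 (by linarith [hb _ (abs_add_le s w), hb _ (abs_sub s w)])
    show |p s * (q w * pairW Φ s w)| ≤ _
    rw [abs_mul, abs_mul, show |pairW Φ s w| = pairW Φ s w from Real.abs_exp _]
    have hK0 : 0 ≤ K * Real.exp (k * |s|) := (abs_nonneg _).trans (hK s)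
    have hL0 : 0 ≤ L * Real.exp (l * |w|) := (abs_nonneg _).trans (hL w)
    refine (mul_le_mul (hK s) (mul_le_mul (hL w) hW (Real.exp_pos _).le hL0) ?_ hK0).trans
      (le_of_eq ?_)
    · exact mul_nonneg (abs_nonneg _) (Real.exp_pos _).le
    · rw [add_mul, add_mul, Real.exp_add, Real.exp_add, Real.exp_add, Real.exp_add,
        mul_assoc 2 c |s|, mul_assoc 2 c |w|]
      ring

lemma expBdd_exp_abs (k : ℕ) : ExpBdd fun x => Real.exp ((k : ℝ) * |x|) :=
  ⟨by fun_prop, 1, k, fun x => by rw [Real.abs_exp, one_mul]⟩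

/-- The inner mean in the second variable. -/
def inner2 (Φ : ℝ → ℝ) (q : ℝ → ℝ) (s : ℝ) : ℝ := ∫ w, q w * pairW Φ s w ∂gaussianReal 0 1

lemma pair_fubini (h : Pot Φ) {p q : ℝ → ℝ} (hp : ExpBdd p) (hq : ExpBdd q) :
    Integrable (fun s => p s * inner2 Φ q s) (gaussianReal 0 1) ∧
      ∫ z : ℝ × ℝ, p z.1 * (q z.2 * pairW Φ z.1 z.2)
          ∂(gaussianReal 0 1).prod (gaussianReal 0 1) =
        ∫ s, p s * inner2 Φ q s ∂gaussianReal 0 1 := by
  have hi := integrable_pair h hp hq
  refine ⟨hi.integral_prod_left.congr (ae_of_all _ fun s => ?_), ?_⟩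
  · show ∫ w, p s * (q w * pairW Φ s w) ∂gaussianReal 0 1 = _
    rw [integral_const_mul]; rfl
  · rw [integral_prod (f := fun z : ℝ × ℝ => p z.1 * (q z.2 * pairW Φ z.1 z.2)) hi]
    exact integral_congr_ae (ae_of_all _ fun s => by simp only [integral_const_mul]; rfl)

lemma inner2_even (h : Pot Φ) (q : ℝ → ℝ) (s : ℝ) : inner2 Φ q (-s) = inner2 Φ q s := by
  simp only [inner2, pairW_neg_fst h]

lemma inner2_one_pos (h : Pot Φ) (s : ℝ) : 0 < inner2 Φ (fun _ => 1) s := by
  obtain ⟨A, c, hc, hA⟩ := h.growth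
  have hs2 : (1 : ℝ) ≤ Real.sqrt 2 := Real.one_le_sqrt.2 one_le_two
  have hi : Integrable (fun w => pairW Φ s w) (gaussianReal 0 1) := by
    refine ((integrable_exp_abs (2 * c)).const_mul (Real.exp (2 * A + 2 * c * |s|))).mono' ?_
      (ae_of_all _ fun w => ?_)
    · have := h.cont
      exact (show Continuous fun w => pairW Φ s w by unfold pairW; fun_prop).aestronglyMeasurable
    · rw [Real.norm_eq_abs, show |pairW Φ s w| = pairW Φ s w from Real.abs_exp _, ← Real.exp_add]
      have hb : ∀ y, |y| ≤ |s| + |w| → Φ (y / Real.sqrt 2) ≤ A + c * (|s| + |w|) := fun y hy => by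
        refine (hA _).trans (add_le_add le_rfl (mul_le_mul_of_nonneg_left ?_ hc))
        rw [abs_div, abs_of_pos (by linarith : (0 : ℝ) < Real.sqrt 2)]
        exact (div_le_self (abs_nonneg y) hs2).trans hy
      exact Real.exp_le_exp.2 (by linarith [hb _ (abs_add_le s w), hb _ (abs_sub s w)])
  have := integral_exp_pos (μ := gaussianReal 0 1) (f := fun w =>
    Φ ((s + w) / Real.sqrt 2) + Φ ((s - w) / Real.sqrt 2)) hi
  simpa [inner2, pairW] using this

/-- The ratio of the two inner means decreases in the modulus. -/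
lemma inner2_ratio (h : Pot Φ) {s t : ℝ} (hst : |s| ≤ |t|) :
    inner2 Φ (fun w => w ^ 2) t * inner2 Φ (fun _ => 1) s ≤
      inner2 Φ (fun w => w ^ 2) s * inner2 Φ (fun _ => 1) t := by
  have hfix : ∀ x {q : ℝ → ℝ}, ExpBdd q →
      Integrable (fun w => q w * pairW Φ x w) (gaussianReal 0 1) := fun x {q} hq => by
    obtain ⟨A, c, hc, hA⟩ := h.growth
    obtain ⟨hqc, L, l, hL⟩ := hq
    have hs2 : (1 : ℝ) ≤ Real.sqrt 2 := Real.one_le_sqrt.2 one_le_two
    refine ((integrable_exp_abs (l + 2 * c)).const_mul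
      (L * Real.exp (2 * A + 2 * c * |x|))).mono' ?_ (ae_of_all _ fun w => ?_)
    · have := h.cont
      exact (show Continuous fun w => q w * pairW Φ x w by
        unfold pairW; fun_prop).aestronglyMeasurable
    · rw [Real.norm_eq_abs, abs_mul, show |pairW Φ x w| = pairW Φ x w from Real.abs_exp _]
      have hb : ∀ y, |y| ≤ |x| + |w| → Φ (y / Real.sqrt 2) ≤ A + c * (|x| + |w|) := fun y hy => by
        refine (hA _).trans (add_le_add le_rfl (mul_le_mul_of_nonneg_left ?_ hc))
        rw [abs_div, abs_of_pos (by linarith : (0 : ℝ) < Real.sqrt 2)]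
        exact (div_le_self (abs_nonneg y) hs2).trans hy
      refine (mul_le_mul (hL w) (show pairW Φ x w ≤ Real.exp (2 * A + 2 * c * |x| + 2 * c * |w|) from
        Real.exp_le_exp.2 (by linarith [hb _ (abs_add_le x w), hb _ (abs_sub x w)]))
        (Real.exp_pos _).le ((abs_nonneg _).trans (hL w))).trans (le_of_eq ?_)
      simp only [add_mul, Real.exp_add]
      ring
  have e : ∀ x, inner2 Φ (fun _ => 1) x = ∫ w, pairW Φ x w ∂gaussianReal 0 1 := fun x => by
    simp [inner2]
  have hpos : ∀ x, 0 < ∫ w, pairW Φ x w ∂gaussianReal 0 1 := fun x => e x ▸ inner2_one_pos h x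
  have hch := Vale.Agent.P157.Parisi.Full.Concave.cheb (μ := gaussianReal 0 1) (φ := fun w => w ^ 2) (a := pairW Φ t) (b := pairW Φ s)
    (by simpa using hfix t expBdd_one) (by simpa using hfix s expBdd_one)
    (hfix t (expBdd_pow 2)) (hfix s (expBdd_pow 2)) (hpos t) (hpos s)
    (fun u v huv => by simpa [sq_abs] using pow_le_pow_left₀ (abs_nonneg u) huv 2)
    (fun u v huv => by have := pairW_rect h hst huv; linarith)
  rw [div_le_div_iff₀ (hpos t) (hpos s), ← e, ← e] at hch
  exact hch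

/-- The negative association of the rotated pair under a tilt to the right. -/
lemma pair_cov (h : Pot Φ) {b : ℝ} (hb : 0 ≤ b) :
    (∫ z : ℝ × ℝ, z.1 * Real.exp (b * z.1) * (z.2 ^ 2 * pairW Φ z.1 z.2)
        ∂(gaussianReal 0 1).prod (gaussianReal 0 1)) *
      (∫ z : ℝ × ℝ, Real.exp (b * z.1) * (1 * pairW Φ z.1 z.2)
        ∂(gaussianReal 0 1).prod (gaussianReal 0 1)) ≤
    (∫ z : ℝ × ℝ, z.1 * Real.exp (b * z.1) * (1 * pairW Φ z.1 z.2)
        ∂(gaussianReal 0 1).prod (gaussianReal 0 1)) *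
      ∫ z : ℝ × ℝ, Real.exp (b * z.1) * (z.2 ^ 2 * pairW Φ z.1 z.2)
        ∂(gaussianReal 0 1).prod (gaussianReal 0 1) := by
  set A := inner2 Φ (fun w => w ^ 2)
  set C := inner2 Φ fun _ => 1
  have hid : ExpBdd fun x => x := by simpa using expBdd_pow 1
  have hcosh : ExpBdd fun x => Real.cosh (b * x) :=
    ⟨by fun_prop, 1, |b|, fun x => by
      rw [abs_of_pos (Real.cosh_pos _), one_mul, ← abs_mul, Real.cosh_eq]
      have h1 := Real.exp_le_exp.2 (le_abs_self (b * x))
      have h2 := Real.exp_le_exp.2 (neg_le_abs (b * x))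
      linarith⟩
  have hsinh : ExpBdd fun x => Real.sinh (b * x) :=
    ⟨by fun_prop, 1, |b|, fun x => by
      beta_reduce
      rw [one_mul, ← abs_mul, Real.sinh_eq, abs_le]
      have h1 := Real.exp_le_exp.2 (le_abs_self (b * x))
      have h2 := Real.exp_le_exp.2 (neg_le_abs (b * x))
      constructor <;> linarith [Real.exp_pos (b * x), Real.exp_pos (-(b * x))]⟩
  -- symmetrisation of the outer variable
  have hcoshI : ∀ q, ExpBdd q → ∫ z : ℝ × ℝ, Real.exp (b * z.1) * (q z.2 * pairW Φ z.1 z.2)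
      ∂(gaussianReal 0 1).prod (gaussianReal 0 1) =
      ∫ s, Real.cosh (b * s) * inner2 Φ q s ∂gaussianReal 0 1 := fun q hq => by
    obtain ⟨i1, e1⟩ := pair_fubini h (expBdd_exp b) hq
    rw [e1, integral_sym i1 ((pair_fubini h (expBdd_exp (-b)) hq).1.congr
      (ae_of_all _ fun s => by simp [inner2_even h]))]
    exact integral_congr_ae (ae_of_all _ fun s => by
      simp only [inner2_even h, Real.cosh_eq, mul_neg]; ring)
  have hsinhI : ∀ q, ExpBdd q → ∫ z : ℝ × ℝ, z.1 * Real.exp (b * z.1) * (q z.2 * pairW Φ z.1 z.2)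
      ∂(gaussianReal 0 1).prod (gaussianReal 0 1) =
      ∫ s, s * Real.sinh (b * s) * inner2 Φ q s ∂gaussianReal 0 1 := fun q hq => by
    obtain ⟨i1, e1⟩ := pair_fubini h (hid.mul (expBdd_exp b)) hq
    rw [e1, integral_sym i1 ((pair_fubini h (hid.mul (expBdd_exp (-b))) hq).1.neg.congr
      (ae_of_all _ fun s => by simp [inner2_even h]))]
    exact integral_congr_ae (ae_of_all _ fun s => by
      simp only [inner2_even h, Real.sinh_eq, mul_neg]; ring)
  rw [hsinhI _ (expBdd_pow 2), hcoshI _ expBdd_one, hsinhI _ expBdd_one, hcoshI _ (expBdd_pow 2)]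
  have iA := (pair_fubini h hcosh (expBdd_pow 2)).1
  have iC := (pair_fubini h hcosh expBdd_one).1
  have iA' := (pair_fubini h (hid.mul hsinh) (expBdd_pow 2)).1
  have iC' := (pair_fubini h (hid.mul hsinh) expBdd_one).1
  have hCpos : 0 < ∫ s, Real.cosh (b * s) * C s ∂gaussianReal 0 1 := by
    refine (integral_pos_iff_support_of_nonneg
      (fun s => (mul_pos (Real.cosh_pos _) (inner2_one_pos h s)).le) iC).2 ?_
    rw [show Function.support (fun s => Real.cosh (b * s) * C s) = Set.univ from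
      Set.eq_univ_of_forall fun s => (mul_pos (Real.cosh_pos _) (inner2_one_pos h s)).ne']
    simp
  have hA0 : ∀ s, 0 ≤ A s := fun s =>
    integral_nonneg fun w => mul_nonneg (sq_nonneg w) (Real.exp_pos _).le
  have hint : 0 ≤ ∫ s, Real.cosh (b * s) * A s ∂gaussianReal 0 1 :=
    integral_nonneg fun s => mul_nonneg (Real.cosh_pos (b * s)).le (hA0 s)
  rcases hint.lt_or_eq with hApos | hAzero
  · have key : ∀ q s, s * Real.tanh (b * s) * (Real.cosh (b * s) * q) =
        s * Real.sinh (b * s) * q := fun q s => by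
      rw [Real.tanh_eq_sinh_div_cosh]
      have := (Real.cosh_pos (b * s)).ne'
      field_simp
    have hch := Vale.Agent.P157.Parisi.Full.Concave.cheb (μ := gaussianReal 0 1) (φ := fun s => s * Real.tanh (b * s))
      (a := fun s => Real.cosh (b * s) * A s) (b := fun s => Real.cosh (b * s) * C s) iA iC
      (iA'.congr (ae_of_all _ fun s => (key _ s).symm))
      (iC'.congr (ae_of_all _ fun s => (key _ s).symm)) hApos hCpos
      (fun u v huv => ?_) (fun u v huv => ?_)
    · rw [div_le_div_iff₀ hApos hCpos] at hch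
      simp only [key] at hch
      exact hch
    · have e : ∀ x, x * Real.tanh (b * x) = |x| * Real.tanh (b * |x|) := fun x => by
        rcases abs_choice x with e | e <;> rw [e]
        rw [mul_neg, Real.tanh_neg]; ring
      rw [e u, e v]
      exact mul_le_mul huv (tanh_le_tanh (mul_le_mul_of_nonneg_left huv hb))
        (tanh_nonneg (mul_nonneg hb (abs_nonneg u))) (abs_nonneg v)
    · have := mul_le_mul_of_nonneg_left (inner2_ratio h huv)
        (mul_pos (Real.cosh_pos (b * u)) (Real.cosh_pos (b * v))).le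
      linarith
  · exfalso
    have h0 := (integral_eq_zero_iff_of_nonneg
      (fun s => mul_nonneg (Real.cosh_pos (b * s)).le (hA0 s)) iA).1 hAzero.symm
    obtain ⟨s, hs⟩ := h0.exists
    have hs' : A s = 0 := (mul_eq_zero.1 hs).resolve_left (Real.cosh_pos _).ne'
    obtain ⟨i, e⟩ := pair_fubini h expBdd_one (expBdd_pow 2)
    have h1 : ∀ᵐ s ∂gaussianReal 0 1, A s = 0 := h0.mono fun s hs =>
      (mul_eq_zero.1 hs).resolve_left (Real.cosh_pos _).ne'
    have h2 : ∫ z : ℝ × ℝ, (1 : ℝ) * (z.2 ^ 2 * pairW Φ z.1 z.2)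
        ∂(gaussianReal 0 1).prod (gaussianReal 0 1) = 0 := by
      rw [e]
      exact integral_eq_zero_of_ae (h1.mono fun s hs => by simp [A] at hs; simp [hs])
    have h3 := (integral_eq_zero_iff_of_nonneg (fun z => by
      exact mul_nonneg zero_le_one (mul_nonneg (sq_nonneg _) (Real.exp_pos _).le))
      (integrable_pair h expBdd_one (expBdd_pow 2))).1 h2
    have h4 : ∀ᵐ z : ℝ × ℝ ∂(gaussianReal 0 1).prod (gaussianReal 0 1), z.2 = 0 :=
      h3.mono fun z hz => by simpa [pairW, (Real.exp_pos _).ne'] using hz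
    have h5 := (Measure.quasiMeasurePreserving_snd (μ := gaussianReal 0 1)
      (ν := gaussianReal 0 1))
    haveI := nullSingletonClass_gaussianReal (μ := (0 : ℝ)) (v := 1) one_ne_zero
    have h6 : ((gaussianReal 0 1).prod (gaussianReal 0 1)) (Set.univ ×ˢ ({0}ᶜ : Set ℝ)) = 0 :=
      measure_mono_null (fun z hz => by simpa using hz) (ae_iff.1 h4)
    simp [Measure.prod_prod] at h6

/-- The third cumulant of a tilt to the right is nonpositive. -/
lemma cumulant_nonpos (h : Pot Φ) {a : ℝ} (ha : 0 ≤ a) :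
    moment Φ 3 a * moment Φ 0 a ^ 2 - 3 * (moment Φ 2 a * moment Φ 1 a * moment Φ 0 a) +
      2 * moment Φ 1 a ^ 3 ≤ 0 := by
  set μ := gaussianReal 0 1
  set b := Real.sqrt 2 * a
  -- products of moments as integrals of the rotated pair
  have hpair : ∀ i j, moment Φ i a * moment Φ j a = ∫ z : ℝ × ℝ,
      ((z.1 + z.2) / Real.sqrt 2) ^ i * ((z.1 - z.2) / Real.sqrt 2) ^ j *
        (Real.exp (b * z.1) * pairW Φ z.1 z.2) ∂μ.prod μ := by
    intro i j
    set f : ℝ × ℝ → ℝ := fun p =>
      p.1 ^ i * Real.exp (a * p.1 + Φ p.1) * (p.2 ^ j * Real.exp (a * p.2 + Φ p.2))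
    have hf : Continuous f := by have := h.cont; unfold f; fun_prop
    rw [moment, moment, ← integral_prod_mul]
    have hid0 : ∫ x, id x ∂μ = 0 := integral_id_gaussianReal
    have hrot := IsGaussian.map_rotation_eq_self (μ := μ) hid0 (Real.pi / 4)
    have hn : μ.map (fun x : ℝ => -x) = μ := by simp only [μ]; rw [gaussianReal_map_neg, neg_zero]
    have hflip : (μ.prod μ).map (fun z : ℝ × ℝ => (z.1, -z.2)) = μ.prod μ :=
      (Measure.map_prod_map μ μ measurable_id measurable_neg).symm.trans (by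
        rw [Measure.map_id]; exact congrArg μ.prod hn)
    show ∫ p, f p ∂μ.prod μ = _
    conv_lhs => rw [← hflip, integral_map (by fun_prop) hf.aestronglyMeasurable]
    have hg : Continuous fun x : ℝ × ℝ => f (x.1, -x.2) := hf.comp (by fun_prop)
    conv_lhs =>
      rw [← hrot, integral_map (ContinuousLinearMap.rotation _).continuous.aemeasurable
        hg.aestronglyMeasurable]
    refine integral_congr_ae (ae_of_all _ fun z => ?_)
    obtain ⟨s, w⟩ := z
    have hne : Real.sqrt 2 ≠ 0 := by positivity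
    have h2 : Real.sqrt 2 * Real.sqrt 2 = 2 := Real.mul_self_sqrt zero_le_two
    have e1 : Real.cos (Real.pi / 4) * s + Real.sin (Real.pi / 4) * w = (s + w) / Real.sqrt 2 := by
      rw [Real.cos_pi_div_four, Real.sin_pi_div_four, eq_div_iff hne]
      linear_combination (s + w) / 2 * h2
    have e2 : -(-Real.sin (Real.pi / 4) * s + Real.cos (Real.pi / 4) * w) =
        (s - w) / Real.sqrt 2 := by
      rw [Real.cos_pi_div_four, Real.sin_pi_div_four, eq_div_iff hne]
      linear_combination (s - w) / 2 * h2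
    simp only [ContinuousLinearMap.rotation_apply, smul_eq_mul, e1, e2, f, pairW]
    rw [mul_mul_mul_comm, ← Real.exp_add, ← Real.exp_add]
    congr 2
    rw [show b * s = a * (Real.sqrt 2 * s) by simp only [b]; ring]
    field_simp
    linear_combination (-(a * s)) * h2
  have hmom : ∀ i j, Integrable (fun z : ℝ × ℝ => ((z.1 + z.2) / Real.sqrt 2) ^ i *
      ((z.1 - z.2) / Real.sqrt 2) ^ j * (Real.exp (b * z.1) * pairW Φ z.1 z.2)) (μ.prod μ) := by
    intro i j
    have hb' := expBdd_exp b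
    refine ((integrable_pair h (hb'.mul (expBdd_exp_abs (i + j : ℕ))) (expBdd_exp_abs (i + j : ℕ))).const_mul
      ((i.factorial : ℝ) * j.factorial)).mono' ?_ (ae_of_all _ fun z => ?_)
    · have := h.cont
      exact (show Continuous fun z : ℝ × ℝ => ((z.1 + z.2) / Real.sqrt 2) ^ i *
        ((z.1 - z.2) / Real.sqrt 2) ^ j * (Real.exp (b * z.1) * pairW Φ z.1 z.2) by
        unfold pairW; fun_prop).aestronglyMeasurable
    · have hs2 : (1 : ℝ) ≤ Real.sqrt 2 := Real.one_le_sqrt.2 one_le_two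
      have hb2 : ∀ (k : ℕ) (y : ℝ), |y| ≤ |z.1| + |z.2| → |y / Real.sqrt 2| ^ k ≤
          k.factorial * (Real.exp ((k : ℝ) * |z.1|) * Real.exp ((k : ℝ) * |z.2|)) := fun k y hy => by
        rcases Nat.eq_zero_or_pos k with rfl | hk
        · simp
        refine (pow_abs_le k _).trans (mul_le_mul_of_nonneg_left ?_ (Nat.cast_nonneg _))
        rw [← Real.exp_add, abs_div, abs_of_pos (by linarith : (0 : ℝ) < Real.sqrt 2)]
        refine Real.exp_le_exp.2 ((div_le_self (abs_nonneg y) hs2).trans (hy.trans ?_))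
        rw [← mul_add]
        exact le_mul_of_one_le_left (by positivity) (by exact_mod_cast hk)
      rw [Real.norm_eq_abs, abs_mul, abs_mul, abs_pow, abs_pow,
        show |Real.exp (b * z.1) * pairW Φ z.1 z.2| = Real.exp (b * z.1) * pairW Φ z.1 z.2 from
          abs_of_pos (mul_pos (Real.exp_pos _) (Real.exp_pos _))]
      refine (mul_le_mul_of_nonneg_right (mul_le_mul (hb2 i _ (abs_add_le _ _)) (hb2 j _ (abs_sub _ _))
        (by positivity) (by positivity)) (mul_pos (Real.exp_pos _) (Real.exp_pos _)).le).trans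
        (le_of_eq ?_)
      push_cast
      simp only [pairW, add_mul, Real.exp_add]
      ring
  have hid : ExpBdd fun x => x := by simpa using expBdd_pow 1
  have hexp := expBdd_exp b
  have hcov := pair_cov h (show 0 ≤ b by positivity)
  set P := ∫ z : ℝ × ℝ, z.1 * Real.exp (b * z.1) * (z.2 ^ 2 * pairW Φ z.1 z.2) ∂μ.prod μ
  set W0 := ∫ z : ℝ × ℝ, Real.exp (b * z.1) * (1 * pairW Φ z.1 z.2) ∂μ.prod μ
  set S := ∫ z : ℝ × ℝ, z.1 * Real.exp (b * z.1) * (1 * pairW Φ z.1 z.2) ∂μ.prod μ
  set Q := ∫ z : ℝ × ℝ, Real.exp (b * z.1) * (z.2 ^ 2 * pairW Φ z.1 z.2) ∂μ.prod μ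
  have hne : Real.sqrt 2 ≠ 0 := by positivity
  have h2 : Real.sqrt 2 * Real.sqrt 2 = 2 := Real.mul_self_sqrt zero_le_two
  have hdiv : ∀ y, y / Real.sqrt 2 = y * Real.sqrt 2 / 2 := fun y => by
    rw [div_eq_iff hne]; linear_combination (-y / 2) * h2
  -- moments of the pair through moments of one variable
  have eW : moment Φ 0 a * moment Φ 0 a = W0 := by
    rw [hpair 0 0]
    exact integral_congr_ae (ae_of_all _ fun z => by simp)
  have eS : moment Φ 1 a * moment Φ 0 a + moment Φ 0 a * moment Φ 1 a = Real.sqrt 2 * S := by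
    rw [hpair 1 0, hpair 0 1, ← integral_const_mul, ← integral_add]
    · refine integral_congr_ae (ae_of_all _ fun z => ?_)
      simp only [hdiv]
      ring
    · exact hmom 1 0
    · exact hmom 0 1
  have eQ : moment Φ 2 a * moment Φ 0 a - 2 * (moment Φ 1 a * moment Φ 1 a) +
      moment Φ 0 a * moment Φ 2 a = 2 * Q := by
    rw [hpair 2 0, hpair 1 1, hpair 0 2, ← integral_const_mul, ← integral_const_mul,
      ← integral_sub (hmom 2 0) ((hmom 1 1).const_mul 2), ← integral_add]
    · refine integral_congr_ae (ae_of_all _ fun z => ?_)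
      simp only [hdiv]
      linear_combination (z.2 ^ 2 * Real.exp (b * z.1) * pairW Φ z.1 z.2) * h2
    · exact (hmom 2 0).sub ((hmom 1 1).const_mul 2)
    · exact hmom 0 2
  have eP : moment Φ 3 a * moment Φ 0 a - moment Φ 2 a * moment Φ 1 a -
      moment Φ 1 a * moment Φ 2 a + moment Φ 0 a * moment Φ 3 a = 2 * Real.sqrt 2 * P := by
    rw [hpair 3 0, hpair 2 1, hpair 1 2, hpair 0 3, ← integral_const_mul,
      ← integral_sub (hmom 3 0) (hmom 2 1), ← integral_sub _ (hmom 1 2), ← integral_add]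
    · refine integral_congr_ae (ae_of_all _ fun z => ?_)
      simp only [hdiv]
      linear_combination
        (z.1 * z.2 ^ 2 * Real.sqrt 2 * Real.exp (b * z.1) * pairW Φ z.1 z.2) * h2
    · exact ((hmom 3 0).sub (hmom 2 1)).sub (hmom 1 2)
    · exact hmom 0 3
    · exact (hmom 3 0).sub (hmom 2 1)
  set M0 := moment Φ 0 a
  set M1 := moment Φ 1 a
  set M2 := moment Φ 2 a
  set M3 := moment Φ 3 a
  have hM0 : 0 < M0 := moment_zero_pos h a
  have hkey : (M3 * M0 - M2 * M1 - M1 * M2 + M0 * M3) * (M0 * M0) ≤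
      (M1 * M0 + M0 * M1) * (M2 * M0 - 2 * (M1 * M1) + M0 * M2) := by
    rw [eP, eW, eS, eQ]
    have := mul_le_mul_of_nonneg_left hcov (show 0 ≤ 2 * Real.sqrt 2 by positivity)
    linarith
  have : (M3 * M0 ^ 2 - 3 * (M2 * M1 * M0) + 2 * M1 ^ 3) * (2 * M0) ≤ 0 := by linarith
  exact nonpos_of_mul_nonpos_left this (by linarith)

end Vale.Agent.P146.Div.ShapeStep
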