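import Vale.Agent.P146.Div.Defs
import Vale.Agent.P157.Full.Concave.Tilt
import Vale.Agent.P157.Full.Deriv

/-!
Bounded derivatives of finite order are kept by tilted Gaussian means.
-/

noncomputable section

open MeasureTheory ProbabilityTheory Filter
open scoped Topology

namespace Vale.Agent.P146.Div.ShapeStep

open Vale.Agent.P157.Parisi (layer tilt)
open Vale.Agent.P157.Parisi.Site (integrable_exp_abs)

/-- Bounded and continuous, with derivatives up to the order `k` of the same kind. -/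
def Bd : ℕ → (ℝ → ℝ) → Prop
  | 0, h => Continuous h ∧ ∃ C, ∀ x, |h x| ≤ C
  | k + 1, h => Differentiable ℝ h ∧ (∃ C, ∀ x, |h x| ≤ C) ∧ Bd k (deriv h)

lemma Bd.bound {k : ℕ} {h : ℝ → ℝ} (hh : Bd k h) : ∃ C, ∀ x, |h x| ≤ C := by
  cases k with
  | zero => exact hh.2
  | succ k => exact hh.2.1

lemma Bd.continuous {k : ℕ} {h : ℝ → ℝ} (hh : Bd k h) : Continuous h := by
  cases k with
  | zero => exact hh.1
  | succ k => exact hh.1.continuous

lemma Bd.pred : ∀ {k : ℕ} {h : ℝ → ℝ}, Bd (k + 1) h → Bd k h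
  | 0, _, hh => ⟨hh.1.continuous, hh.2.1⟩
  | _ + 1, _, hh => ⟨hh.1, hh.2.1, Bd.pred hh.2.2⟩

lemma Bd.add : ∀ {k : ℕ} {f g : ℝ → ℝ}, Bd k f → Bd k g → Bd k fun x => f x + g x := by
  intro k
  induction k with
  | zero =>
    rintro f g ⟨hf, A, hA⟩ ⟨hg, B, hB⟩
    exact ⟨hf.add hg, A + B, fun x => (abs_add_le _ _).trans (add_le_add (hA x) (hB x))⟩
  | succ k ih =>
    rintro f g ⟨hf, ⟨A, hA⟩, hf'⟩ ⟨hg, ⟨B, hB⟩, hg'⟩
    refine ⟨hf.add hg, ⟨A + B, fun x => (abs_add_le _ _).trans (add_le_add (hA x) (hB x))⟩, ?_⟩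
    rw [show deriv (fun x => f x + g x) = fun x => deriv f x + deriv g x from
      funext fun x => deriv_fun_add (hf x) (hg x)]
    exact ih hf' hg'

lemma Bd.mul : ∀ {k : ℕ} {f g : ℝ → ℝ}, Bd k f → Bd k g → Bd k fun x => f x * g x := by
  intro k
  have hb : ∀ {f g : ℝ → ℝ}, (∃ C, ∀ x, |f x| ≤ C) → (∃ C, ∀ x, |g x| ≤ C) →
      ∃ C, ∀ x, |f x * g x| ≤ C := by
    rintro f g ⟨A, hA⟩ ⟨B, hB⟩
    exact ⟨A * B, fun x => by
      rw [abs_mul]
      exact mul_le_mul (hA x) (hB x) (abs_nonneg _) ((abs_nonneg _).trans (hA x))⟩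
  induction k with
  | zero => exact fun hf hg => ⟨hf.1.mul hg.1, hb hf.2 hg.2⟩
  | succ k ih =>
    intro f g hf hg
    refine ⟨hf.1.mul hg.1, hb hf.2.1 hg.2.1, ?_⟩
    rw [show deriv (fun x => f x * g x) = fun x => deriv f x * g x + f x * deriv g x from
      funext fun x => deriv_fun_mul (hf.1 x) (hg.1 x)]
    exact (ih hf.2.2 hg.pred).add (ih hf.pred hg.2.2)

lemma Bd.const (k : ℕ) (c : ℝ) : Bd k fun _ => c := by
  induction k generalizing c with
  | zero => exact ⟨continuous_const, |c|, fun _ => le_rfl⟩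
  | succ k ih =>
    refine ⟨differentiable_const c, ⟨|c|, fun _ => le_rfl⟩, ?_⟩
    rw [show deriv (fun _ : ℝ => c) = fun _ => 0 from funext fun x => deriv_const x c]
    exact ih 0

lemma Bd.contDiff : ∀ {k : ℕ} {h : ℝ → ℝ}, Bd k h → ContDiff ℝ k h
  | 0, _, hh => by simpa [contDiff_zero] using hh.1
  | k + 1, _, hh => by
    push_cast
    exact contDiff_succ_iff_deriv.2 ⟨hh.1, by simp, hh.2.2.contDiff⟩

lemma Bd.iterated : ∀ {k : ℕ} {h : ℝ → ℝ}, Bd k h → ∀ j ≤ k,
    ∃ C, ∀ x, |iteratedDeriv j h x| ≤ C := by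
  intro k
  induction k with
  | zero =>
    intro h hh j hj
    rw [Nat.le_zero.1 hj, iteratedDeriv_zero]
    exact hh.2
  | succ k ih =>
    intro h hh j hj
    cases j with
    | zero => rw [iteratedDeriv_zero]; exact hh.2.1
    | succ j => rw [iteratedDeriv_succ']; exact ih hh.2.2 j (by omega)

lemma bd_of_iterated : ∀ {k : ℕ} {h : ℝ → ℝ}, ContDiff ℝ k h →
    (∀ j ≤ k, ∃ C, ∀ x, |iteratedDeriv j h x| ≤ C) → Bd k h := by
  intro k
  induction k with
  | zero =>
    intro h hc hb
    exact ⟨hc.continuous, by simpa using hb 0 le_rfl⟩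
  | succ k ih =>
    intro h hc hb
    push_cast at hc
    obtain ⟨hd, -, hc'⟩ := contDiff_succ_iff_deriv.1 hc
    refine ⟨hd, by simpa using hb 0 (by omega), ih hc' fun j hj => ?_⟩
    simpa [iteratedDeriv_succ'] using hb (j + 1) (by omega)

variable {m δ C : ℝ} {F h : ℝ → ℝ}

/-- A bound for the growth of a function with bounded derivative. -/
lemma abs_le_linear (hd : Differentiable ℝ F) (hC : ∀ x, |deriv F x| ≤ C) (y : ℝ) :
    |F y| ≤ |F 0| + C * |y| := by
  have h := (convex_univ (𝕜 := ℝ) (E := ℝ)).norm_image_sub_le_of_norm_deriv_le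
    (fun x _ => hd x) (fun x _ => hC x) (Set.mem_univ 0) (Set.mem_univ y)
  simp only [Real.norm_eq_abs, sub_zero] at h
  linarith [abs_sub_abs_le_abs_sub (F y) (F 0)]

/-- The integrand of a tilted mean. -/
def integrand (m δ : ℝ) (F h : ℝ → ℝ) (x g : ℝ) : ℝ :=
  Real.exp (m * F (x + Real.sqrt δ * g)) * h (x + Real.sqrt δ * g)

lemma abs_integrand_le (hm : 0 ≤ m) (hd : Differentiable ℝ F) (hC : ∀ x, |deriv F x| ≤ C) {A : ℝ}
    (hA : ∀ x, |h x| ≤ A) (x g : ℝ) :
    |integrand m δ F h x g| ≤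
      A * Real.exp (m * (|F 0| + C * |x|)) * Real.exp (m * C * Real.sqrt δ * |g|) := by
  have hC0 : 0 ≤ C := (abs_nonneg _).trans (hC 0)
  rw [integrand, abs_mul, Real.abs_exp, mul_assoc, ← Real.exp_add, mul_comm _ |h _|]
  refine mul_le_mul (hA _) (Real.exp_le_exp.2 ?_) (Real.exp_pos _).le ((abs_nonneg _).trans (hA 0))
  have h1 := (le_abs_self _).trans (abs_le_linear hd hC (x + Real.sqrt δ * g))
  have h2 : |x + Real.sqrt δ * g| ≤ |x| + Real.sqrt δ * |g| := by
    have := abs_add_le x (Real.sqrt δ * g)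
    rwa [abs_mul, abs_of_nonneg (Real.sqrt_nonneg δ)] at this
  calc m * F (x + Real.sqrt δ * g) ≤ m * (|F 0| + C * (|x| + Real.sqrt δ * |g|)) :=
        mul_le_mul_of_nonneg_left (h1.trans (by linarith [mul_le_mul_of_nonneg_left h2 hC0])) hm
    _ = _ := by ring

lemma integrable_integrand (hm : 0 ≤ m) (hd : Differentiable ℝ F) (hC : ∀ x, |deriv F x| ≤ C)
    {A : ℝ} (hc : Continuous h) (hA : ∀ x, |h x| ≤ A) (x : ℝ) :
    Integrable (integrand m δ F h x) (gaussianReal 0 1) := by
  refine ((integrable_exp_abs (m * C * Real.sqrt δ)).const_mul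
    (A * Real.exp (m * (|F 0| + C * |x|)))).mono' ?_
    (ae_of_all _ fun g => abs_integrand_le hm hd hC hA x g)
  have := hd.continuous
  exact (show Continuous (integrand m δ F h x) by unfold integrand; fun_prop).aestronglyMeasurable

lemma den_pos (hm : 0 ≤ m) (hd : Differentiable ℝ F) (hC : ∀ x, |deriv F x| ≤ C) (x : ℝ) :
    0 < ∫ g, Real.exp (m * F (x + Real.sqrt δ * g)) ∂gaussianReal 0 1 :=
  integral_exp_pos ((integrable_integrand (h := fun _ => 1) (A := 1) hm hd hC continuous_const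
    (fun _ => by simp) x).congr (ae_of_all _ fun g => mul_one _))

lemma hasDerivAt_num (hm : 0 ≤ m) (hd : Differentiable ℝ F) (hF : Bd 0 (deriv F)) (hh : Bd 1 h)
    (x : ℝ) :
    HasDerivAt (fun y => ∫ g, integrand m δ F h y g ∂gaussianReal 0 1)
      (∫ g, integrand m δ F (fun y => deriv h y + m * (deriv F y * h y)) x g ∂gaussianReal 0 1) x := by
  obtain ⟨C, hC⟩ := hF.2
  obtain ⟨A, hA⟩ := hh.bound
  have hb : Bd 0 fun y => deriv h y + m * (deriv F y * h y) :=
    hh.2.2.add ((Bd.const 0 m).mul (hF.mul hh.pred))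
  obtain ⟨B, hB⟩ := hb.2
  have hB0 : 0 ≤ B := (abs_nonneg _).trans (hB 0)
  have hC0 : 0 ≤ C := (abs_nonneg _).trans (hC 0)
  refine (hasDerivAt_integral_of_dominated_loc_of_deriv_le (μ := gaussianReal 0 1)
    (F := fun y g => integrand m δ F h y g)
    (F' := fun y g => integrand m δ F (fun y => deriv h y + m * (deriv F y * h y)) y g)
    (bound := fun g => B * Real.exp (m * (|F 0| + C * (|x| + 1))) *
      Real.exp (m * C * Real.sqrt δ * |g|))
    (Metric.ball_mem_nhds x one_pos)
    (Eventually.of_forall fun y => (integrable_integrand hm hd hC hh.continuous hA y).1)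
    (integrable_integrand hm hd hC hh.continuous hA x)
    (integrable_integrand hm hd hC hb.1 hB x).1 ?_ ((integrable_exp_abs _).const_mul _) ?_).2
  · refine Eventually.of_forall fun g y hy => (abs_integrand_le hm hd hC hB y g).trans ?_
    rw [Metric.mem_ball, Real.dist_eq] at hy
    refine mul_le_mul_of_nonneg_right (mul_le_mul_of_nonneg_left (Real.exp_le_exp.2 ?_) hB0)
      (Real.exp_pos _).le
    refine mul_le_mul_of_nonneg_left (add_le_add le_rfl (mul_le_mul_of_nonneg_left ?_ hC0)) hm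
    linarith [abs_sub_abs_le_abs_sub y x]
  · refine Eventually.of_forall fun g y _ => ?_
    refine ((((hd _).hasDerivAt.comp_add_const y (Real.sqrt δ * g)).const_mul m).exp.mul
      ((hh.1 _).hasDerivAt.comp_add_const y (Real.sqrt δ * g))).congr_deriv ?_
    simp only [integrand]
    ring

lemma tilt_eq (x : ℝ) : tilt m δ F h x = (∫ g, integrand m δ F h x g ∂gaussianReal 0 1) /
    ∫ g, integrand m δ F (fun _ => 1) x g ∂gaussianReal 0 1 := by
  simp only [tilt, integrand, mul_one]

lemma hasDerivAt_tilt (hm : 0 ≤ m) (hd : Differentiable ℝ F) (hF : Bd 0 (deriv F)) (hh : Bd 1 h)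
    (x : ℝ) :
    HasDerivAt (tilt m δ F h) (tilt m δ F (fun y => deriv h y + m * (deriv F y * h y)) x -
      m * (tilt m δ F (deriv F) x * tilt m δ F h x)) x := by
  obtain ⟨C, hC⟩ := hF.2
  have hne : ∫ g, integrand m δ F (fun _ => 1) x g ∂gaussianReal 0 1 ≠ 0 := by
    have := (den_pos (δ := δ) hm hd hC x).ne'
    simpa [integrand] using this
  have h1 := hasDerivAt_num (δ := δ) hm hd hF (Bd.const 1 1) x
  have h2 := (hasDerivAt_num (δ := δ) hm hd hF hh x).div h1 hne
  rw [show tilt m δ F h = fun y => (∫ g, integrand m δ F h y g ∂gaussianReal 0 1) /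
    ∫ g, integrand m δ F (fun _ => 1) y g ∂gaussianReal 0 1 from funext fun y => tilt_eq y]
  refine h2.congr_deriv ?_
  have e : ∫ g, integrand m δ F (fun y => deriv (fun _ : ℝ => (1 : ℝ)) y + m * (deriv F y * 1)) x g
      ∂gaussianReal 0 1 = m * ∫ g, integrand m δ F (deriv F) x g ∂gaussianReal 0 1 := by
    rw [← integral_const_mul]
    refine integral_congr_ae (ae_of_all _ fun g => ?_)
    simp only [integrand, deriv_const]
    ring
  rw [e, tilt_eq, tilt_eq]
  field_simp

lemma bd_tilt0 (hm : 0 ≤ m) (hd : Differentiable ℝ F) (hF : Bd 0 (deriv F)) (hh : Bd 0 h)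
    (hc : Continuous (tilt m δ F h)) : Bd 0 (tilt m δ F h) := by
  obtain ⟨C, hC⟩ := hF.2
  obtain ⟨A, hA⟩ := hh.2
  refine ⟨hc, A, fun x => ?_⟩
  have hp := den_pos (δ := δ) hm hd hC x
  rw [tilt, abs_div, abs_of_pos hp, div_le_iff₀ hp, ← integral_const_mul]
  refine abs_integral_le_integral_abs.trans (integral_mono
    (integrable_integrand hm hd hC hh.1 hA x).abs
    (((integrable_integrand (h := fun _ => 1) (A := 1) hm hd hC continuous_const (fun _ => by simp)
      x).congr (ae_of_all _ fun g => mul_one _)).const_mul A) fun g => ?_)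
  show |Real.exp _ * h _| ≤ A * Real.exp _
  rw [abs_mul, Real.abs_exp, mul_comm]
  exact mul_le_mul_of_nonneg_right (hA _) (Real.exp_pos _).le

lemma continuous_tilt (hm : 0 ≤ m) (hd : Differentiable ℝ F) (hF : Bd 0 (deriv F)) (hh : Bd 0 h) :
    Continuous (tilt m δ F h) := by
  obtain ⟨C, hC⟩ := hF.2
  have key : ∀ {k : ℝ → ℝ}, Bd 0 k →
      Continuous fun y => ∫ g, integrand m δ F k y g ∂gaussianReal 0 1 := fun {k} hk => by
    obtain ⟨A, hA⟩ := hk.2
    have hC0 : 0 ≤ C := (abs_nonneg _).trans (hC 0)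
    have hA0 : 0 ≤ A := (abs_nonneg _).trans (hA 0)
    refine continuous_iff_continuousAt.2 fun x => continuousAt_of_dominated
      (Eventually.of_forall fun y => (integrable_integrand hm hd hC hk.1 hA y).1) ?_
      ((integrable_exp_abs (m * C * Real.sqrt δ)).const_mul
        (A * Real.exp (m * (|F 0| + C * (|x| + 1))))) (ae_of_all _ fun g => ?_)
    · filter_upwards [Metric.ball_mem_nhds x one_pos] with y hy
      refine ae_of_all _ fun g => (abs_integrand_le hm hd hC hA y g).trans ?_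
      rw [Metric.mem_ball, Real.dist_eq] at hy
      refine mul_le_mul_of_nonneg_right (mul_le_mul_of_nonneg_left (Real.exp_le_exp.2 ?_) hA0)
        (Real.exp_pos _).le
      refine mul_le_mul_of_nonneg_left (add_le_add le_rfl (mul_le_mul_of_nonneg_left ?_ hC0)) hm
      linarith [abs_sub_abs_le_abs_sub y x]
    · have := hd.continuous
      have := hk.1
      exact (show Continuous fun y => integrand m δ F k y g by unfold integrand; fun_prop).continuousAt
  rw [show tilt m δ F h = fun y => (∫ g, integrand m δ F h y g ∂gaussianReal 0 1) /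
    ∫ g, integrand m δ F (fun _ => 1) y g ∂gaussianReal 0 1 from funext fun y => tilt_eq y]
  exact (key hh).div (key (Bd.const 0 1)) fun x => by
    simpa [integrand] using (den_pos (δ := δ) hm hd hC x).ne'

lemma bd_tilt (hm : 0 ≤ m) (hd : Differentiable ℝ F) : ∀ {k : ℕ} {h : ℝ → ℝ},
    Bd k (deriv F) → Bd k h → Bd k (tilt m δ F h) := by
  intro k
  induction k with
  | zero => exact fun hF hh => bd_tilt0 hm hd hF hh (continuous_tilt hm hd hF hh)
  | succ k ih =>
    intro h hF hh
    have down : ∀ {j : ℕ} {f : ℝ → ℝ}, Bd (j + 1) f → Bd 1 f ∧ Bd 0 f := by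
      intro j
      induction j with
      | zero => exact fun hf => ⟨hf, hf.pred⟩
      | succ j ihj => exact fun hf => ihj hf.pred
    have hF0 := (down hF).2
    have hh1 := (down hh).1
    have hD := hasDerivAt_tilt (δ := δ) hm hd hF0 hh1
    refine ⟨fun x => (hD x).differentiableAt, (ih hF.pred hh.pred).bound, ?_⟩
    rw [show deriv (tilt m δ F h) = fun x =>
        tilt m δ F (fun y => deriv h y + m * (deriv F y * h y)) x +
          (-m) * (tilt m δ F (deriv F) x * tilt m δ F h x) from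
      funext fun x => (hD x).deriv.trans (by ring)]
    exact (ih hF.pred (hh.2.2.add ((Bd.const k m).mul (hF.pred.mul hh.pred)))).add
      ((Bd.const k (-m)).mul ((ih hF.pred hF.pred).mul (ih hF.pred hh.pred)))

lemma hasDerivAt_layer (hm : 0 < m) (hd : Differentiable ℝ F) (hF : Bd 0 (deriv F)) (x : ℝ) :
    HasDerivAt (layer m δ F) (tilt m δ F (deriv F) x) x := by
  obtain ⟨C, hC⟩ := hF.2
  have hne := (den_pos (δ := δ) hm.le hd hC x).ne'
  have h1 := hasDerivAt_num (δ := δ) hm.le hd hF (Bd.const 1 1) x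
  rw [show layer m δ F = fun y =>
      1 / m * Real.log (∫ g, integrand m δ F (fun _ => 1) y g ∂gaussianReal 0 1) from
    funext fun y => by simp only [layer, integrand, mul_one]]
  have hne' : ∫ g, integrand m δ F (fun _ => 1) x g ∂gaussianReal 0 1 ≠ 0 := by
    simpa [integrand] using hne
  refine ((h1.log hne').const_mul (1 / m)).congr_deriv ?_
  have e : ∫ g, integrand m δ F (fun y => deriv (fun _ : ℝ => (1 : ℝ)) y + m * (deriv F y * 1)) x g
      ∂gaussianReal 0 1 = m * ∫ g, integrand m δ F (deriv F) x g ∂gaussianReal 0 1 := by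
    rw [← integral_const_mul]
    refine integral_congr_ae (ae_of_all _ fun g => ?_)
    simp only [integrand, deriv_const]
    ring
  rw [e, tilt_eq]
  field_simp

end Vale.Agent.P146.Div.ShapeStep
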